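import Vale.Agent.P181.SZR2.Defs

set_option autoImplicit false

/-!
# P181, SZ R2a: column and row degrees of `FF`
-/

open MvPolynomial

namespace Vale.Agent.P181.SZR2

open Vale.Agent.P181.T4 (HW ColHom colW weight_colW)
open Vale.Agent.P181.SZ (PK)

variable {m b l : ℕ}

/-- Weighted homogeneity through a substitution. -/
lemma wh_aeval {σ τ : Type} (w : τ → ℕ) (w0 : σ → ℕ) (φ : σ → MvPolynomial τ ℂ)
    (hφ : ∀ p, IsWeightedHomogeneous w (φ p) (w0 p)) {g : MvPolynomial σ ℂ} {n : ℕ}
    (hg : IsWeightedHomogeneous w0 g n) : IsWeightedHomogeneous w (aeval φ g) n := by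
  classical
  rw [g.as_sum, map_sum]
  refine IsWeightedHomogeneous.sum _ _ _ fun v hv => ?_
  rw [aeval_monomial]
  have h1 : Finsupp.weight w0 v = n := hg (mem_support_iff.1 hv)
  have h2 : IsWeightedHomogeneous w (v.prod fun i k => φ i ^ k) n := by
    rw [← h1, Finsupp.weight_apply]
    exact IsWeightedHomogeneous.prod _ _ _ fun i _ => (hφ i).pow (v i)
  have h3 := (isWeightedHomogeneous_C w (coeff v g)).mul h2
  rw [zero_add] at h3
  exact h3

lemma weight_fintype {σ : Type} [Fintype σ] (w : σ → ℕ) (v : σ →₀ ℕ) :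
    Finsupp.weight w v = ∑ p, v p * w p := by
  rw [Finsupp.weight_apply, Finsupp.sum_fintype _ _ (fun _ => by simp)]
  rfl

lemma wh_X {σ : Type} (w : σ → ℕ) (p : σ) {n : ℕ} (h : w p = n) :
    IsWeightedHomogeneous w (X p : MvPolynomial σ ℂ) n := by
  rw [← h]
  exact isWeightedHomogeneous_X ℂ w p

/-- The weight of `Zh`. -/
lemma wh_Zh (h : 3 * l ≤ b) (w : Fin (m + 1) × Fin b → ℕ) (p : Fin m × Fin l) (n : ℕ)
    (h0 : w (p.1.succ, pos h p.2 0) + w (0, pos h p.2 1) + w (0, pos h p.2 2) = n)
    (h1 : w (0, pos h p.2 0) + w (p.1.succ, pos h p.2 1) + w (0, pos h p.2 2) = n)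
    (h2 : w (0, pos h p.2 0) + w (0, pos h p.2 1) + w (p.1.succ, pos h p.2 2) = n) :
    IsWeightedHomogeneous w (Zh m h p) n := by
  have e0 := ((isWeightedHomogeneous_X ℂ w (p.1.succ, pos h p.2 0)).mul
    (isWeightedHomogeneous_X ℂ w (0, pos h p.2 1))).mul
    (isWeightedHomogeneous_X ℂ w (0, pos h p.2 2))
  have e1 := ((isWeightedHomogeneous_X ℂ w (0, pos h p.2 0)).mul
    (isWeightedHomogeneous_X ℂ w (p.1.succ, pos h p.2 1))).mul
    (isWeightedHomogeneous_X ℂ w (0, pos h p.2 2))
  have e2 := ((isWeightedHomogeneous_X ℂ w (0, pos h p.2 0)).mul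
    (isWeightedHomogeneous_X ℂ w (0, pos h p.2 1))).mul
    (isWeightedHomogeneous_X ℂ w (p.1.succ, pos h p.2 2))
  rw [h0] at e0
  rw [h1] at e1
  rw [h2] at e2
  exact (e0.add e1).sub (e2.C_mul 2)

/-- The column degrees. -/
theorem colHom_FF (a : ℕ) (h : 3 * l ≤ b) (d : Fin l → ℕ) (mu : Fin m → ℕ)
    (hd : ∀ j, d j ≤ a) {g : MvPolynomial (Fin m × Fin l) ℂ} (hg : g ∈ PK m (Fin l) d mu) :
    ColHom a (FF a m h d g) := by
  classical
  intro c
  rw [FF_apply]
  have hdex : dex d c ≤ a := by
    unfold dex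
    split_ifs
    · exact hd _
    · exact Nat.zero_le _
  have h1 : IsWeightedHomogeneous (colW (m := m + 1) c)
      (∏ c' : Fin b, (X (0, c') : MvPolynomial (Fin (m + 1) × Fin b) ℂ) ^ (a - dex d c'))
      (a - dex d c) := by
    have h2 := IsWeightedHomogeneous.prod (w := colW (m := m + 1) c) Finset.univ
      (fun c' : Fin b => (X (0, c') : MvPolynomial (Fin (m + 1) × Fin b) ℂ) ^ (a - dex d c'))
      (fun c' => (a - dex d c') • (if c' = c then 1 else 0))
      (fun c' _ => (wh_X (colW (m := m + 1) c) (0, c') rfl).pow _)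
    have h3 : ∑ c' : Fin b, (a - dex d c') • (if c' = c then 1 else 0) = a - dex d c := by
      rw [Finset.sum_eq_single c]
      · rw [if_pos rfl, smul_eq_mul, mul_one]
      · intro c' _ hc'
        rw [if_neg hc', smul_zero]
      · intro h'
        exact absurd (Finset.mem_univ _) h'
    rwa [h3] at h2
  have h4 : IsWeightedHomogeneous (colW (m := m + 1) c) (aeval (Zh m h) g) (dex d c) := by
    refine wh_aeval (colW (m := m + 1) c)
      (fun p : Fin m × Fin l => if (p.2 : ℕ) = (c : ℕ) / 3 then 1 else 0) _ ?_ ?_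
    · intro p
      have key : ∀ (i : Fin (m + 1)) (t : Fin 3), colW (m := m + 1) c (i, pos h p.2 t) =
          if (c : ℕ) = 3 * (p.2 : ℕ) + t then 1 else 0 := by
        intro i t
        unfold colW
        simp only [Fin.ext_iff, pos]
        split_ifs <;> omega
      refine wh_Zh h _ p _ ?_ ?_ ?_ <;>
      · rw [key, key, key]
        simp only [Fin.val_zero, Fin.val_one, Fin.val_two]
        split_ifs <;> omega
    · intro v hv
      rw [weight_fintype, Fintype.sum_prod_type, Finset.sum_comm]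
      unfold dex
      by_cases hc : (c : ℕ) / 3 < l
      · rw [dif_pos hc, Finset.sum_eq_single (⟨(c : ℕ) / 3, hc⟩ : Fin l)]
        · simp only [if_true, mul_one]
          exact hg.2.1 v hv _
        · intro j _ hj
          refine Finset.sum_eq_zero fun i _ => ?_
          rw [if_neg (fun h' => hj (Fin.ext h')), mul_zero]
        · intro h'
          exact absurd (Finset.mem_univ _) h'
      · rw [dif_neg hc]
        refine Finset.sum_eq_zero fun j _ => Finset.sum_eq_zero fun i _ => ?_
        rw [if_neg, mul_zero]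
        intro h'
        have := j.2
        change (j : ℕ) = (c : ℕ) / 3 at h'
        omega
  have h5 := h1.mul h4
  rwa [Nat.sub_add_cancel hdex] at h5

/-- The row degrees below row `0`. -/
theorem row_FF (a : ℕ) (h : 3 * l ≤ b) (d : Fin l → ℕ) (mu : Fin m → ℕ)
    {g : MvPolynomial (Fin m × Fin l) ℂ} (hg : g ∈ PK m (Fin l) d mu) (i : Fin m)
    (v : Fin (m + 1) × Fin b →₀ ℕ) (hv : coeff v (FF a m h d g) ≠ 0) :
    ∑ c, v (i.succ, c) = mu i := by
  classical
  have h1 : IsWeightedHomogeneous (fun p : Fin (m + 1) × Fin b => if p.1 = i.succ then 1 else 0)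
      (∏ c' : Fin b, (X (0, c') : MvPolynomial (Fin (m + 1) × Fin b) ℂ) ^ (a - dex d c'))
      0 := by
    have h2 := IsWeightedHomogeneous.prod
      (w := fun p : Fin (m + 1) × Fin b => if p.1 = i.succ then 1 else 0) Finset.univ
      (fun c' : Fin b => (X (0, c') : MvPolynomial (Fin (m + 1) × Fin b) ℂ) ^ (a - dex d c'))
      (fun c' => (a - dex d c') • 0)
      (fun c' _ => (wh_X _ (0, c') (by
        change (if (0 : Fin (m + 1)) = i.succ then 1 else 0) = 0
        rw [if_neg (Fin.succ_ne_zero i).symm])).pow _)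
    have h3 : ∑ c' : Fin b, (a - dex d c') • 0 = 0 :=
      Finset.sum_eq_zero fun c' _ => smul_zero _
    rwa [h3] at h2
  have h4 : IsWeightedHomogeneous
      (fun p : Fin (m + 1) × Fin b => if p.1 = i.succ then 1 else 0)
      (aeval (Zh m h) g) (mu i) := by
    refine wh_aeval _ (fun p : Fin m × Fin l => if p.1 = i then 1 else 0) _ ?_ ?_
    · intro p
      have k0 : ∀ c : Fin b, (fun p : Fin (m + 1) × Fin b => if p.1 = i.succ then 1 else 0)
          ((0 : Fin (m + 1)), c) = 0 := fun c => if_neg (Fin.succ_ne_zero i).symm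
      have k1 : ∀ c : Fin b, (fun p : Fin (m + 1) × Fin b => if p.1 = i.succ then 1 else 0)
          (p.1.succ, c) = if p.1 = i then 1 else 0 := by
        intro c
        simp only [Fin.succ_inj]
      refine wh_Zh h _ p _ ?_ ?_ ?_ <;> simp only [k0, k1, add_zero, zero_add]
    · intro v hv
      rw [weight_fintype, Fintype.sum_prod_type, Finset.sum_eq_single i]
      · simp only [if_true, mul_one]
        exact hg.1.1 v hv i
      · intro j _ hj
        refine Finset.sum_eq_zero fun c _ => ?_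
        rw [if_neg hj, mul_zero]
      · intro h'
        exact absurd (Finset.mem_univ _) h'
  have h5 := h1.mul h4
  rw [zero_add] at h5
  rw [FF_apply] at hv
  have h6 := h5 hv
  rw [weight_fintype, Fintype.sum_prod_type, Finset.sum_eq_single i.succ] at h6
  · simpa only [if_true, mul_one] using h6
  · intro j _ hj
    refine Finset.sum_eq_zero fun c _ => ?_
    rw [if_neg hj, mul_zero]
  · intro h'
    exact absurd (Finset.mem_univ _) h'

/-- All row degrees. -/
theorem rows_FF (a : ℕ) (h : 3 * l ≤ b) (d : Fin l → ℕ) (mu : Fin m → ℕ)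
    (lam : Fin (m + 1) → ℕ) (hd : ∀ j, d j ≤ a) (hl : ∀ i : Fin m, lam i.succ = mu i)
    (hs : ∑ i, lam i = a * b)
    {g : MvPolynomial (Fin m × Fin l) ℂ} (hg : g ∈ PK m (Fin l) d mu)
    (v : Fin (m + 1) × Fin b →₀ ℕ) (hv : coeff v (FF a m h d g) ≠ 0) (i : Fin (m + 1)) :
    ∑ c, v (i, c) = lam i := by
  have h1 : ∀ i : Fin m, ∑ c, v (i.succ, c) = lam i.succ := by
    intro i
    rw [hl i]
    exact row_FF a h d mu hg i v hv
  have h2 : ∑ i, ∑ c, v (i, c) = a * b := by
    rw [Finset.sum_comm]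
    have h3 : ∀ c, ∑ i, v (i, c) = a := by
      intro c
      rw [← weight_colW]
      exact colHom_FF a h d mu hd hg c hv
    rw [Finset.sum_congr rfl fun c _ => h3 c, Finset.sum_const, Finset.card_univ,
      Fintype.card_fin, smul_eq_mul, mul_comm]
  refine Fin.cases ?_ h1 i
  rw [Fin.sum_univ_succ, Finset.sum_congr rfl fun i _ => h1 i] at h2
  rw [Fin.sum_univ_succ] at hs
  omega

end Vale.Agent.P181.SZR2
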