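import Vale.Agent.P181.SZR2.Final
import Vale.Agent.P181.SZR2.Col
import Vale.Agent.P181.SZR2a.RowOp

set_option autoImplicit false

/-!
# P181, SZ R2: `LowerS`
-/

namespace Vale.Agent.P181.SZR2

/-- **(R2a)** homogenization. -/
theorem homS : HomS := by
  intro a b m l h d mu lam hd hl hs g hg
  exact ⟨⟨fun v hv i => rows_FF a h d mu lam hd hl hs hg v hv i,
    fun s i hsi => SZR2a.rowOp_FF a h d hg.1 s i hsi⟩, colHom_FF a h d mu hd hg⟩

/-- **(R2)** the lower bound. -/
theorem lowerS : Vale.Agent.P181.SZ.LowerS := lower_of_hom homS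

end Vale.Agent.P181.SZR2
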