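import Vale.Agent.P181.SZR2.Defs

set_option autoImplicit false

/-!
# P181, SZ R2b: counting permutations
-/

namespace Vale.Agent.P181.SZR2

variable {b l : ℕ}

/-- The first columns. -/
def inc (h : 3 * l ≤ b) (i : Fin l) : Fin b := ⟨i, by have := i.2; omega⟩

lemma inc_injective (h : 3 * l ≤ b) : Function.Injective (inc h) := by
  intro i j hij
  have := congrArg Fin.val hij
  exact Fin.ext this

lemma pos_injective (h : 3 * l ≤ b) {i j : Fin l} {s t : Fin 3} (e : pos h i s = pos h j t) :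
    i = j ∧ s = t := by
  have h1 : 3 * (i : ℕ) + s = 3 * (j : ℕ) + t := congrArg Fin.val e
  have h2 := s.2
  have h3 := t.2
  exact ⟨Fin.ext (by omega), Fin.ext (by omega)⟩

/-- A permutation extending an injection. -/
lemma exists_perm {α β : Type} [Finite β] (x y : α → β) (hx : Function.Injective x)
    (hy : Function.Injective y) : ∃ e : Equiv.Perm β, ∀ i, e (x i) = y i := by
  classical
  have := Fintype.ofFinite β
  let e0 : {c // c ∈ Set.range x} ≃ {c // c ∈ Set.range y} :=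
    (Equiv.ofInjective x hx).symm.trans (Equiv.ofInjective y hy)
  refine ⟨e0.extendSubtype, fun i => ?_⟩
  rw [Equiv.extendSubtype_apply_of_mem e0 (x i) ⟨i, rfl⟩]
  have h1 : (Equiv.ofInjective x hx).symm ⟨x i, ⟨i, rfl⟩⟩ = i :=
    (Equiv.symm_apply_eq _).2 rfl
  change ((Equiv.ofInjective y hy) ((Equiv.ofInjective x hx).symm ⟨x i, ⟨i, rfl⟩⟩) : β) = y i
  rw [h1]
  rfl

/-- The slot `t j` of the block `j` goes to the column `τ j`. -/
def AA (h : 3 * l ≤ b) (t : Fin l → Fin 3) (τ : Equiv.Perm (Fin l))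
    (σ : Equiv.Perm (Fin b)) : Prop :=
  ∀ j, σ (pos h j (t j)) = inc h (τ j)

lemma AA_unique (h : 3 * l ≤ b) {t t' : Fin l → Fin 3} {τ τ' : Equiv.Perm (Fin l)}
    {σ : Equiv.Perm (Fin b)} (h1 : AA h t τ σ) (h2 : AA h t' τ' σ) : t = t' ∧ τ = τ' := by
  have key : ∀ j, τ j = τ' j ∧ t j = t' j := by
    intro j
    have h3 := h1 (τ.symm (τ' j))
    rw [Equiv.apply_symm_apply, ← h2 j] at h3
    obtain ⟨h4, h5⟩ := pos_injective h (σ.injective h3)
    rw [h4] at h5
    refine ⟨?_, h5⟩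
    rw [Equiv.symm_apply_eq] at h4
    exact h4.symm
  exact ⟨funext fun j => (key j).2, Equiv.ext fun j => (key j).1⟩

lemma exists_AA (h : 3 * l ≤ b) (σ : Equiv.Perm (Fin b))
    (hσ : ∀ j, ∃ t, (σ (pos h j t) : ℕ) < l) : ∃ t τ, AA h t τ σ := by
  choose t ht using hσ
  have hinj : Function.Injective (fun j => (⟨σ (pos h j (t j)), ht j⟩ : Fin l)) := by
    intro i j hij
    have h1 : σ (pos h i (t i)) = σ (pos h j (t j)) := Fin.ext (Fin.mk.inj_iff.1 hij)
    exact (pos_injective h (σ.injective h1)).1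
  refine ⟨t, Equiv.ofBijective _ (Finite.injective_iff_bijective.1 hinj), fun j => ?_⟩
  apply Fin.ext
  rfl

/-- The number of permutations does not depend on the slots. -/
lemma exists_card_AA (h : 3 * l ≤ b) : ∃ N : ℕ, 0 < N ∧ ∀ t τ, Nat.card {σ // AA h t τ σ} = N := by
  classical
  refine ⟨Nat.card {σ : Equiv.Perm (Fin b) // ∀ j, σ (inc h j) = inc h j}, ?_, ?_⟩
  · have : Nonempty {σ : Equiv.Perm (Fin b) // ∀ j, σ (inc h j) = inc h j} :=
      ⟨⟨1, fun j => rfl⟩⟩
    exact Nat.card_pos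
  · intro t τ
    obtain ⟨p, hp⟩ := exists_perm (inc h) (fun j => pos h j (t j)) (inc_injective h)
      (fun i j hij => (pos_injective h hij).1)
    obtain ⟨q, hq⟩ := exists_perm (inc h) (fun j => inc h (τ j)) (inc_injective h)
      ((inc_injective h).comp τ.injective)
    refine Nat.card_congr (Equiv.subtypeEquiv ((Equiv.mulLeft q⁻¹).trans (Equiv.mulRight p)) ?_)
    intro σ
    apply forall_congr'
    intro j
    have h1 : ((Equiv.mulLeft q⁻¹).trans (Equiv.mulRight p)) σ (inc h j) =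
        q⁻¹ (σ (p (inc h j))) := rfl
    rw [h1, hp, Equiv.Perm.inv_eq_iff_eq, hq]

/-- The live slot of a block: all the other slots go outside the first columns. -/
lemma AA_other (h : 3 * l ≤ b) {t : Fin l → Fin 3} {τ : Equiv.Perm (Fin l)}
    {σ : Equiv.Perm (Fin b)} (h1 : AA h t τ σ) {j : Fin l} {s : Fin 3} (hs : s ≠ t j) :
    ¬ (σ (pos h j s) : ℕ) < l := by
  intro h2
  have h3 := h1 (τ.symm ⟨_, h2⟩)
  rw [Equiv.apply_symm_apply] at h3
  have h4 : σ (pos h (τ.symm ⟨_, h2⟩) (t (τ.symm ⟨_, h2⟩))) = σ (pos h j s) :=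
    h3.trans (Fin.ext rfl)
  obtain ⟨h5, h6⟩ := pos_injective h (σ.injective h4)
  rw [h5] at h6
  exact hs h6.symm

section sums

variable {W : Type} [AddCommGroup W] [Module ℂ W]

/-- Extension by zero. -/
def ext0 (b : ℕ) {l : ℕ} (y : Fin l → W) (c : Fin b) : W :=
  if h : (c : ℕ) < l then y ⟨c, h⟩ else 0

/-- The three coefficients. -/
def cf : Fin 3 → ℂ := ![1, 1, -2]

/-- The differences of the blocks. -/
def zz (h : 3 * l ≤ b) (y : Fin b → W) (j : Fin l) : W := ∑ t, cf t • y (pos h j t)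

lemma zz_eq (h : 3 * l ≤ b) (y : Fin b → W) (j : Fin l) :
    zz h y j = y (pos h j 0) + y (pos h j 1) - (2 : ℂ) • y (pos h j 2) := by
  rw [zz, Fin.sum_univ_three]
  simp [cf, sub_eq_add_neg]

lemma zz_of_AA (h : 3 * l ≤ b) {t : Fin l → Fin 3} {τ : Equiv.Perm (Fin l)}
    {σ : Equiv.Perm (Fin b)} (h1 : AA h t τ σ) (y : Fin l → W) :
    zz h (fun c => ext0 b y (σ c)) = fun j => cf (t j) • y (τ j) := by
  funext j
  rw [zz, Finset.sum_eq_single (t j)]
  · congr 1
    rw [h1 j, ext0, dif_pos (show ((inc h (τ j) : Fin b) : ℕ) < l from (τ j).2)]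
    rfl
  · intro s _ hs
    rw [ext0, dif_neg (AA_other h h1 hs), smul_zero]
  · intro h'
    exact absurd (Finset.mem_univ _) h'

lemma zz_dead {l' : ℕ} (h : 3 * l ≤ b) (y : Fin l' → W) (σ : Equiv.Perm (Fin b)) {j : Fin l}
    (hj : ∀ t, ¬ (σ (pos h j t) : ℕ) < l') : zz h (fun c => ext0 b y (σ c)) j = 0 := by
  rw [zz]
  exact Finset.sum_eq_zero fun t _ => by rw [ext0, dif_neg (hj t), smul_zero]

/-- More blocks than live columns. -/
lemma exists_dead {l' : ℕ} (hl : l' < l) (h : 3 * l ≤ b) (y : Fin l' → W)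
    (σ : Equiv.Perm (Fin b)) : ∃ j, zz h (fun c => ext0 b y (σ c)) j = 0 := by
  by_contra hne
  push Not at hne
  have h1 : ∀ j, ∃ t, (σ (pos h j t) : ℕ) < l' := by
    intro j
    by_contra h2
    push Not at h2
    exact hne j (zz_dead h y σ fun t => not_lt.2 (h2 t))
  choose t ht using h1
  have hinj : Function.Injective (fun j => (⟨σ (pos h j (t j)), ht j⟩ : Fin l')) := by
    intro i j hij
    have h1 : σ (pos h i (t i)) = σ (pos h j (t j)) := Fin.ext (Fin.mk.inj_iff.1 hij)
    exact (pos_injective h (σ.injective h1)).1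
  have h2 := Fintype.card_le_of_injective _ hinj
  rw [Fintype.card_fin, Fintype.card_fin] at h2
  omega

/-- **The count.** -/
theorem sum_perm (h : 3 * l ≤ b) (k : Fin l → ℕ) (hk : ∀ j, 2 ≤ k j)
    (G : (Fin l → W) → ℂ) (hG : ∀ (c : Fin l → ℂ) (w : Fin l → W),
      G (fun j => c j • w j) = (∏ j, c j ^ k j) * G w) :
    ∃ C : ℂ, C ≠ 0 ∧ ∀ y : Fin l → W,
      ∑ σ : Equiv.Perm (Fin b), G (zz h (fun c => ext0 b y (σ c))) =
        C * ∑ τ : Equiv.Perm (Fin l), G (fun j => y (τ j)) := by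
  classical
  have hG0 : ∀ (w : Fin l → W) (j : Fin l), w j = 0 → G w = 0 := by
    intro w j hw
    have h1 := hG (Function.update (fun _ => 1) j 0) w
    have h2 : (fun i => (Function.update (fun _ => (1 : ℂ)) j 0 : Fin l → ℂ) i • w i) = w := by
      funext i
      by_cases hi : i = j
      · subst hi
        rw [Function.update_self, zero_smul, hw]
      · rw [Function.update_of_ne hi, one_smul]
    rw [h2, Finset.prod_eq_zero (Finset.mem_univ j), zero_mul] at h1
    · exact h1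
    · rw [Function.update_self, zero_pow]
      have := hk j
      omega
  obtain ⟨N, hN, hcard⟩ := exists_card_AA (b := b) h
  refine ⟨N * ∏ j, ∑ t, cf t ^ k j, ?_, ?_⟩
  · refine mul_ne_zero (Nat.cast_ne_zero.2 hN.ne') (Finset.prod_ne_zero_iff.2 fun j _ => ?_)
    rw [Fin.sum_univ_three]
    simp only [cf, Matrix.cons_val_zero, Matrix.cons_val_one, one_pow]
    have h2 : (![(1 : ℂ), 1, -2] : Fin 3 → ℂ) 2 = -2 := rfl
    rw [h2]
    intro h3
    have h4 : (-2 : ℂ) ^ k j = -2 := by linear_combination h3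
    have h5 : ‖(-2 : ℂ) ^ k j‖ = ‖(-2 : ℂ)‖ := by rw [h4]
    rw [norm_pow, norm_neg, Complex.norm_ofNat] at h5
    have h6 : (2 : ℝ) ^ 2 ≤ 2 ^ k j := pow_le_pow_right₀ (by norm_num) (hk j)
    rw [h5] at h6
    norm_num at h6
  · intro y
    have e1 : ∀ σ : Equiv.Perm (Fin b), G (zz h (fun c => ext0 b y (σ c))) =
        ∑ p : (Fin l → Fin 3) × Equiv.Perm (Fin l),
          if AA h p.1 p.2 σ then (∏ j, cf (p.1 j) ^ k j) * G (fun j => y (p.2 j)) else 0 := by
      intro σ
      by_cases hex : ∃ t τ, AA h t τ σ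
      · obtain ⟨t, τ, h1⟩ := hex
        rw [Finset.sum_eq_single (t, τ)]
        · rw [if_pos h1, zz_of_AA h h1, hG]
        · intro p _ hp
          rw [if_neg]
          intro h2
          obtain ⟨h3, h4⟩ := AA_unique h h1 h2
          exact hp (Prod.ext h3.symm h4.symm)
        · intro h'
          exact absurd (Finset.mem_univ _) h'
      · rw [Finset.sum_eq_zero]
        · have h2 : ∃ j, ∀ t, ¬ (σ (pos h j t) : ℕ) < l := by
            by_contra h3
            push Not at h3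
            exact hex (exists_AA h σ h3)
          obtain ⟨j, hj⟩ := h2
          exact hG0 _ j (zz_dead h y σ hj)
        · intro p _
          rw [if_neg]
          intro h2
          exact hex ⟨p.1, p.2, h2⟩
    rw [Finset.sum_congr rfl fun σ _ => e1 σ, Finset.sum_comm]
    have e2 : ∀ p : (Fin l → Fin 3) × Equiv.Perm (Fin l),
        (∑ σ : Equiv.Perm (Fin b),
          if AA h p.1 p.2 σ then (∏ j, cf (p.1 j) ^ k j) * G (fun j => y (p.2 j)) else 0) =
        N * (∏ j, cf (p.1 j) ^ k j) * G (fun j => y (p.2 j)) := by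
      intro p
      rw [← Finset.sum_filter, Finset.sum_const, nsmul_eq_mul, ← hcard p.1 p.2, Nat.card_eq_fintype_card,
        Fintype.card_subtype, mul_assoc]
    rw [Finset.sum_congr rfl fun p _ => e2 p, Fintype.sum_prod_type, Finset.prod_univ_sum,
      Fintype.piFinset_univ, Finset.mul_sum (s := Finset.univ) (a := (N : ℂ)), Finset.sum_mul]
    refine Finset.sum_congr rfl fun t _ => ?_
    rw [Finset.mul_sum]

end sums

end Vale.Agent.P181.SZR2
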