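import Vale.Agent.P181.SZR2.Indep

set_option autoImplicit false

/-!
# P181, SZ R2: the lower bound
-/

open MvPolynomial

namespace Vale.Agent.P181.SZR2

open Vale.Agent.P181.T4 (HW ColHom symP evalP evalP_apply evalP_inj evalP_symP symF_apply HWcol
  mem_ColS plethMult_ge_poly finiteDimensional_HW)
open Vale.Agent.P181.SZ (PK nn PT tl LowerS)
open Vale.Agent.P181.H280 (plethMult)

variable {m b l : ℕ}

lemma eval_aeval' {σ τ : Type} (x : τ → ℂ) (f : σ → MvPolynomial τ ℂ) (g : MvPolynomial σ ℂ) :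
    eval x (aeval f g) = eval (fun i => eval x (f i)) g := by
  rw [aeval_def, eval_eval₂, eval, coe_eval₂Hom]
  congr 1
  ext y
  simp

/-- The points with first coordinate `1`. -/
def pt1 (y : Fin b → Fin m → ℂ) : Fin b → Fin (m + 1) → ℂ := fun c => Fin.cons 1 (y c)

/-- The value of `FF` at points with first coordinate `1`. -/
lemma evalP_FF (a : ℕ) (h : 3 * l ≤ b) (d : Fin l → ℕ) (g : MvPolynomial (Fin m × Fin l) ℂ)
    (y : Fin b → Fin m → ℂ) :
    evalP b (m + 1) (FF a m h d g) (pt1 y) = evalP l m g (zz h y) := by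
  rw [evalP_apply, evalP_apply, FF_apply, map_mul, map_prod, Finset.prod_eq_one, one_mul,
    eval_aeval']
  · refine congrArg (fun x => eval x g) (funext fun p => ?_)
    simp only [Zh, pt1, map_sub, map_add, map_mul, eval_X, eval_C, Fin.cons_succ, Fin.cons_zero,
      mul_one, one_mul, zz_eq, Pi.add_apply, Pi.sub_apply, Pi.smul_apply, smul_eq_mul]
  · intro c _
    rw [map_pow, eval_X]
    change (1 : ℂ) ^ _ = 1
    rw [one_pow]

/-- The value of the symmetrization. -/
lemma evalP_symP_FF (a : ℕ) (h : 3 * l ≤ b) (d : Fin l → ℕ) (g : MvPolynomial (Fin m × Fin l) ℂ)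
    (y : Fin b → Fin m → ℂ) :
    evalP b (m + 1) (symP b (m + 1) (FF a m h d g)) (pt1 y) =
      ∑ σ : Equiv.Perm (Fin b), evalP l m g (zz h (fun c => y (σ c))) := by
  rw [evalP_symP, symF_apply]
  exact Finset.sum_congr rfl fun σ _ => evalP_FF a h d g (fun c => y (σ c))

instance {σ : Type} [Fintype σ] (d : σ → ℕ) (mu : Fin m → ℕ) :
    FiniteDimensional ℂ (PK m σ d mu) :=
  Submodule.finiteDimensional_of_le (S₂ := HW m σ mu) (fun _ h => h.1)

lemma ker_zero {ι : Type} [Fintype ι] (a : ℕ) (ty : ι → Multiset ℕ)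
    (hty : Function.Injective ty) (h2 : ∀ i, ∀ x ∈ ty i, 2 ≤ x)
    (hh : ∀ i, 3 * (ty i).toList.length ≤ b) {mu : Fin m → ℕ}
    (g : ∀ i, MvPolynomial (Fin m × Fin (ty i).toList.length) ℂ)
    (hg : ∀ i, g i ∈ PK m (Fin (ty i).toList.length) (fun j => (ty i).toList.get j) mu)
    (hx : symP b (m + 1) (∑ i, FF a m (hh i) (fun j => (ty i).toList.get j) (g i)) = 0) :
    ∀ i, g i = 0 := by
  refine indep ty hty h2 hh g hg fun y => ?_
  have h3 := congrFun (congrArg (evalP b (m + 1)) hx) (pt1 y)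
  rw [map_sum, map_sum, Finset.sum_apply, map_zero, Pi.zero_apply] at h3
  rw [← h3]
  refine Finset.sum_congr rfl fun i _ => ?_
  rw [evalP_symP_FF]

/-- **(R2)** for a family of types. -/
theorem lower_gen (hH : HomS) {ι : Type} [Fintype ι] (a : ℕ) (lam : Fin (m + 1) → ℕ)
    (hlam : ∑ i, lam i = a * b) (ty : ι → Multiset ℕ) (hty : Function.Injective ty)
    (h2 : ∀ i, ∀ x ∈ ty i, 2 ≤ x) (ha : ∀ i, ∀ x ∈ ty i, x ≤ a)
    (hh : ∀ i, 3 * (ty i).toList.length ≤ b) :
    ∑ i, nn m (tl lam) (ty i) ≤ plethMult b a (m + 1) lam := by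
  classical
  have hFF : ∀ (i : ι) (g : MvPolynomial (Fin m × Fin (ty i).toList.length) ℂ),
      g ∈ PK m (Fin (ty i).toList.length) (fun j => (ty i).toList.get j) (tl lam) →
      FF a m (hh i) (fun j => (ty i).toList.get j) g ∈ HWcol (m + 1) b a lam := by
    intro i g hg
    have h3 := hH a b m _ (hh i) (fun j => (ty i).toList.get j) (tl lam) lam
      (fun j => ha i _ (Multiset.mem_toList.1 (List.get_mem _ _)))
      (fun _ => rfl) hlam g hg
    exact ⟨h3.1, mem_ColS.2 h3.2⟩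
  let W := ∀ i : ι, PK m (Fin (ty i).toList.length) (fun j => (ty i).toList.get j) (tl lam)
  let L : W →ₗ[ℂ] MvPolynomial (Fin (m + 1) × Fin b) ℂ :=
    ∑ i : ι, (FF a m (hh i) (fun j => (ty i).toList.get j)) ∘ₗ
      ((PK m (Fin (ty i).toList.length) (fun j => (ty i).toList.get j) (tl lam)).subtype ∘ₗ
        LinearMap.proj i)
  have hL : ∀ x : W, L x = ∑ i : ι,
      FF a m (hh i) (fun j => (ty i).toList.get j) (x i : MvPolynomial _ ℂ) := by
    intro x
    rw [LinearMap.sum_apply]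
    rfl
  have hLmem : ∀ x : W, L x ∈ HWcol (m + 1) b a lam := by
    intro x
    rw [hL]
    exact Submodule.sum_mem _ fun i _ => hFF i _ (x i).2
  have hker : LinearMap.ker ((symP b (m + 1)) ∘ₗ L) = ⊥ := by
    rw [LinearMap.ker_eq_bot']
    intro x hx
    rw [LinearMap.comp_apply, hL] at hx
    have h4 := ker_zero a ty hty h2 hh (fun i => (x i).1) (fun i => (x i).2) hx
    funext i
    exact Subtype.ext (h4 i)
  have hfr : Module.finrank ℂ W = ∑ i, nn m (tl lam) (ty i) := by
    rw [Module.finrank_pi_fintype]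
    rfl
  rw [← hfr]
  let B := Module.finBasis ℂ W
  have h5 := plethMult_ge_poly (b := b) (a := a) (m := m + 1) (lam := lam) (fun j => L (B j))
    (fun j => (hLmem (B j)).1) (fun j => mem_ColS.1 (hLmem (B j)).2)
    (B.linearIndependent.map' ((symP b (m + 1)) ∘ₗ L) hker)
  rwa [Fintype.card_fin] at h5

/-- **(R2)** from the homogenization. -/
theorem lower_of_hom (hH : HomS) : LowerS := by
  classical
  intro a b m lam hlam
  generalize hT : (PT (∑ i, tl lam i)).filter
    (fun k => (∀ x ∈ k, x ≤ a) ∧ 3 * Multiset.card k ≤ b) = T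
  have hmem : ∀ k ∈ T, (∀ x ∈ k, 2 ≤ x) ∧ (∀ x ∈ k, x ≤ a) ∧ 3 * Multiset.card k ≤ b := by
    intro k hk
    rw [← hT] at hk
    have h3 := Finset.mem_filter.1 hk
    exact ⟨(Finset.mem_filter.1 h3.1).2, h3.2⟩
  have h1 := lower_gen hH a lam hlam (ι := {k // k ∈ T}) Subtype.val Subtype.val_injective
    (fun i => (hmem i.1 i.2).1) (fun i => (hmem i.1 i.2).2.1)
    (fun i => by rw [Multiset.length_toList]; exact (hmem i.1 i.2).2.2)
  refine le_trans (le_of_eq ?_) h1
  exact (Finset.sum_coe_sort T (fun k => nn m (tl lam) k)).symm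

end Vale.Agent.P181.SZR2
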