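import Vale.Agent.P181.SZ.Defs
import Vale.Agent.P181.H411.Seam4

set_option autoImplicit false

/-!
# P181, SZ R2: the polynomials of the lower bound

`g` (columns `Fin l`, `3 l ≤ b`) goes to the homogenization of
`g (..., y_3j + y_(3j+1) - 2 y_(3j+2), ...)`.
-/

open MvPolynomial

namespace Vale.Agent.P181.SZR2

open Vale.Agent.P181.T4 (HW ColHom symP evalP)
open Vale.Agent.P181.SZ (PK)

/-- The column `3 j + t`. -/
def pos {b l : ℕ} (h : 3 * l ≤ b) (j : Fin l) (t : Fin 3) : Fin b :=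
  ⟨3 * (j : ℕ) + t, by have := j.2; have := t.2; omega⟩

/-- The homogenization of `y_(i,3j) + y_(i,3j+1) - 2 y_(i,3j+2)`, `y_(i,c) = X (i+1,c) / X (0,c)`,
times the three `X (0, ·)`. -/
noncomputable def Zh (m : ℕ) {b l : ℕ} (h : 3 * l ≤ b) (p : Fin m × Fin l) :
    MvPolynomial (Fin (m + 1) × Fin b) ℂ :=
  X (p.1.succ, pos h p.2 0) * X (0, pos h p.2 1) * X (0, pos h p.2 2) +
  X (0, pos h p.2 0) * X (p.1.succ, pos h p.2 1) * X (0, pos h p.2 2) -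
  C 2 * (X (0, pos h p.2 0) * X (0, pos h p.2 1) * X (p.1.succ, pos h p.2 2))

/-- The degree `d (c / 3)`, `0` if `c / 3 ≥ l`. -/
def dex {l : ℕ} (d : Fin l → ℕ) (c : ℕ) : ℕ := if h : c / 3 < l then d ⟨c / 3, h⟩ else 0

/-- The polynomial of the lower bound. -/
noncomputable def FF (a m : ℕ) {b l : ℕ} (h : 3 * l ≤ b) (d : Fin l → ℕ) :
    MvPolynomial (Fin m × Fin l) ℂ →ₗ[ℂ] MvPolynomial (Fin (m + 1) × Fin b) ℂ :=
  (LinearMap.mulLeft ℂ (∏ c : Fin b, X (0, c) ^ (a - dex d c))) ∘ₗ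
    (aeval (Zh m h)).toLinearMap

lemma FF_apply (a m : ℕ) {b l : ℕ} (h : 3 * l ≤ b) (d : Fin l → ℕ)
    (g : MvPolynomial (Fin m × Fin l) ℂ) :
    FF a m h d g = (∏ c : Fin b, X (0, c) ^ (a - dex d c)) * aeval (Zh m h) g := rfl

/-- **(R2a)** homogenization. -/
def HomS : Prop := ∀ (a b m l : ℕ) (h : 3 * l ≤ b) (d : Fin l → ℕ) (mu : Fin m → ℕ)
  (lam : Fin (m + 1) → ℕ), (∀ j, d j ≤ a) → (∀ i : Fin m, lam i.succ = mu i) →
  ∑ i, lam i = a * b → ∀ g ∈ PK m (Fin l) d mu,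
    FF a m h d g ∈ HW (m + 1) (Fin b) lam ∧ ColHom a (FF a m h d g)

end Vale.Agent.P181.SZR2
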