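import Vale.Agent.P181.SZR2.Count

set_option autoImplicit false

/-!
# P181, SZ R2b: independence of the symmetrizations of different types
-/

open MvPolynomial

namespace Vale.Agent.P181.SZR2

open Vale.Agent.P181.T4 (HW ColHom symP evalP evalP_apply evalP_inj)
open Vale.Agent.P181.SZ (PK)

variable {m b l : ℕ}

/-- Scaling the columns. -/
lemma evalP_scale {d : Fin l → ℕ} {mu : Fin m → ℕ} {g : MvPolynomial (Fin m × Fin l) ℂ}
    (hg : g ∈ PK m (Fin l) d mu) (c : Fin l → ℂ) (w : Fin l → Fin m → ℂ) :
    evalP l m g (fun j => c j • w j) = (∏ j, c j ^ d j) * evalP l m g w := by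
  classical
  rw [evalP_apply, evalP_apply, eval_eq', eval_eq', Finset.mul_sum]
  refine Finset.sum_congr rfl fun v hv => ?_
  have h1 : ∏ p : Fin m × Fin l, (c p.2 • w p.2) p.1 ^ v p =
      (∏ j, c j ^ d j) * ∏ p : Fin m × Fin l, w p.2 p.1 ^ v p := by
    simp only [Pi.smul_apply, smul_eq_mul, mul_pow, Finset.prod_mul_distrib]
    congr 1
    rw [Fintype.prod_prod_type, Finset.prod_comm]
    refine Finset.prod_congr rfl fun j _ => ?_
    change ∏ i, c j ^ v (i, j) = _
    rw [Finset.prod_pow_eq_pow_sum, hg.2.1 v (mem_support_iff.1 hv) j]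
  rw [h1]
  ring

/-- Permuting the columns of equal degree. -/
lemma evalP_stab {d : Fin l → ℕ} {mu : Fin m → ℕ} {g : MvPolynomial (Fin m × Fin l) ℂ}
    (hg : g ∈ PK m (Fin l) d mu) (e : Equiv.Perm (Fin l)) (he : ∀ j, d (e j) = d j)
    (w : Fin l → Fin m → ℂ) :
    evalP l m g (fun j => w (e j)) = evalP l m g w := by
  conv_rhs => rw [← hg.2.2 e he]
  rw [evalP_apply, evalP_apply, eval_rename]
  rfl

lemma ext0_cast {W : Type} [AddCommGroup W] {l l' : ℕ} (e : l = l') (u : Fin l' → W) :
    ext0 b u = ext0 b (fun j => u (Fin.cast e j)) := by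
  subst e
  rfl

lemma map_get (k : Multiset ℕ) :
    (Finset.univ : Finset (Fin k.toList.length)).val.map (fun j => k.toList.get j) = k := by
  rw [Fin.univ_val_map, List.ofFn_get, Multiset.coe_toList]

/-- **(R2b)** independence. -/
theorem indep {ι : Type} [Fintype ι] (ty : ι → Multiset ℕ) (hty : Function.Injective ty)
    (h2 : ∀ i, ∀ x ∈ ty i, 2 ≤ x) (hh : ∀ i, 3 * (ty i).toList.length ≤ b) {mu : Fin m → ℕ}
    (g : ∀ i, MvPolynomial (Fin m × Fin (ty i).toList.length) ℂ)
    (hg : ∀ i, g i ∈ PK m (Fin (ty i).toList.length) (fun j => (ty i).toList.get j) mu)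
    (h0 : ∀ y : Fin b → Fin m → ℂ, ∑ i, ∑ σ : Equiv.Perm (Fin b),
      evalP _ m (g i) (zz (hh i) (fun c => y (σ c))) = 0) : ∀ i, g i = 0 := by
  classical
  by_contra hne
  push Not at hne
  -- a nonzero one with fewest columns
  obtain ⟨i0, hi0, hmin⟩ : ∃ i0, g i0 ≠ 0 ∧ ∀ i, g i ≠ 0 →
      (ty i0).toList.length ≤ (ty i).toList.length := by
    obtain ⟨i1, hi1⟩ := hne
    obtain ⟨i0, hi0, hmin⟩ := Finset.exists_min_image (Finset.univ.filter fun i => g i ≠ 0)
      (fun i => (ty i).toList.length) ⟨i1, Finset.mem_filter.2 ⟨Finset.mem_univ _, hi1⟩⟩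
    exact ⟨i0, (Finset.mem_filter.1 hi0).2,
      fun i hi => hmin i (Finset.mem_filter.2 ⟨Finset.mem_univ _, hi⟩)⟩
  have hcnt : ∀ i, ∃ C : ℂ, C ≠ 0 ∧ ∀ y : Fin (ty i).toList.length → Fin m → ℂ,
      ∑ σ : Equiv.Perm (Fin b), evalP _ m (g i) (zz (hh i) (fun c => ext0 b y (σ c))) =
        C * ∑ τ : Equiv.Perm (Fin (ty i).toList.length), evalP _ m (g i) (fun j => y (τ j)) := by
    intro i
    refine sum_perm (hh i) (fun j => (ty i).toList.get j) (fun j => h2 i _ ?_) _
      (fun c w => evalP_scale (hg i) c w)
    exact Multiset.mem_toList.1 (List.get_mem _ _)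
  choose C hC0 hC using hcnt
  -- the sum over the permutations for the live columns of `i0`
  have hS : ∀ (i : ι) (u : Fin (ty i0).toList.length → Fin m → ℂ),
      ∑ σ : Equiv.Perm (Fin b), evalP _ m (g i) (zz (hh i) (fun c => ext0 b u (σ c))) =
        if e : (ty i).toList.length = (ty i0).toList.length then
          C i * ∑ τ : Equiv.Perm (Fin (ty i).toList.length),
            evalP _ m (g i) (fun j => u (Fin.cast e (τ j))) else 0 := by
    intro i u
    by_cases hgi : g i = 0
    · simp only [hgi, map_zero, Pi.zero_apply, Finset.sum_const_zero, mul_zero, dite_eq_ite,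
        ite_self]
    · rcases (hmin i hgi).lt_or_eq with hlt | heq
      · rw [dif_neg hlt.ne']
        refine Finset.sum_eq_zero fun σ _ => ?_
        obtain ⟨j, hj⟩ := exists_dead hlt (hh i) u σ
        have h3 := evalP_scale (hg i) (Function.update (fun _ => 1) j 0)
          (zz (hh i) fun c => ext0 b u (σ c))
        rw [Finset.prod_eq_zero (Finset.mem_univ j), zero_mul] at h3
        · rw [← h3]
          refine congrArg _ (funext fun x => ?_)
          by_cases hx : x = j
          · subst hx
            rw [Function.update_self, zero_smul, hj]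
          · rw [Function.update_of_ne hx, one_smul]
        · rw [Function.update_self, zero_pow]
          have := h2 i ((ty i).toList.get j) (Multiset.mem_toList.1 (List.get_mem _ _))
          omega
      · rw [dif_pos heq.symm, ext0_cast heq.symm u]
        exact hC i _
  -- the polynomial in the scaling parameters
  let E : ∀ (i : ι) (_ : (ty i).toList.length = (ty i0).toList.length)
      (_ : Equiv.Perm (Fin (ty i).toList.length)), Fin (ty i0).toList.length →₀ ℕ :=
    fun i e τ => Finsupp.equivFunOnFinite.symm
      (fun x => (ty i).toList.get (τ.symm (Fin.cast e.symm x)))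
  have key : ∀ u : Fin (ty i0).toList.length → Fin m → ℂ, evalP _ m (g i0) u = 0 := by
    intro u
    let P : MvPolynomial (Fin (ty i0).toList.length) ℂ :=
      ∑ i, if e : (ty i).toList.length = (ty i0).toList.length then
        ∑ τ : Equiv.Perm (Fin (ty i).toList.length),
          monomial (E i e τ) (C i * evalP _ m (g i) (fun j => u (Fin.cast e (τ j)))) else 0
    have hP : P = 0 := by
      apply MvPolynomial.funext
      intro s
      rw [map_zero]
      have h3 := h0 (ext0 b fun j => s j • u j)
      rw [Finset.sum_congr rfl fun i _ => hS i _] at h3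
      rw [← h3, map_sum]
      refine Finset.sum_congr rfl fun i _ => ?_
      by_cases e : (ty i).toList.length = (ty i0).toList.length
      · rw [dif_pos e, dif_pos e, map_sum, Finset.mul_sum]
        refine Finset.sum_congr rfl fun τ _ => ?_
        rw [eval_monomial, evalP_scale (hg i) (fun j => s (Fin.cast e (τ j)))
          (fun j => u (Fin.cast e (τ j)))]
        have h4 : (E i e τ).prod (fun n k => s n ^ k) =
            ∏ j, s (Fin.cast e (τ j)) ^ (ty i).toList.get j := by
          rw [Finsupp.prod_fintype _ _ (fun _ => pow_zero _)]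
          rw [← Equiv.prod_comp (τ.trans (finCongr e))]
          refine Finset.prod_congr rfl fun j _ => ?_
          have h5 : (E i e τ) ((τ.trans (finCongr e)) j) = (ty i).toList.get j := by
            change (ty i).toList.get (τ.symm (Fin.cast e.symm (Fin.cast e (τ j)))) = _
            rw [Fin.cast_cast, Fin.cast_eq_self, Equiv.symm_apply_apply]
          rw [h5]
          rfl
        rw [h4]
        ring
      · rw [dif_neg e, dif_neg e, map_zero]
    have hκ := congrArg (coeff (Finsupp.equivFunOnFinite.symm
      (fun x => (ty i0).toList.get x))) hP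
    rw [coeff_zero, coeff_sum, Finset.sum_eq_single i0] at hκ
    · rw [dif_pos rfl, coeff_sum] at hκ
      have h5 : ∀ τ : Equiv.Perm (Fin (ty i0).toList.length),
          coeff (Finsupp.equivFunOnFinite.symm (fun x => (ty i0).toList.get x))
            (monomial (E i0 rfl τ) (C i0 * evalP _ m (g i0) (fun j => u (Fin.cast rfl (τ j))))) =
          if (∀ x, (ty i0).toList.get (τ x) = (ty i0).toList.get x) then
            C i0 * evalP _ m (g i0) u else 0 := by
        intro τ
        rw [coeff_monomial]
        by_cases hτ : ∀ x, (ty i0).toList.get (τ x) = (ty i0).toList.get x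
        · rw [if_pos hτ, if_pos]
          · congr 1
            exact evalP_stab (hg i0) τ hτ u
          · ext x
            change (ty i0).toList.get (τ.symm x) = (ty i0).toList.get x
            rw [← hτ (τ.symm x), Equiv.apply_symm_apply]
        · rw [if_neg hτ, if_neg]
          intro h6
          apply hτ
          intro x
          have h7 := DFunLike.congr_fun h6 (τ x)
          change (ty i0).toList.get (τ.symm (τ x)) = (ty i0).toList.get (τ x) at h7
          rw [Equiv.symm_apply_apply] at h7
          exact h7.symm
      rw [Finset.sum_congr rfl fun τ _ => h5 τ, ← Finset.sum_filter, Finset.sum_const,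
        nsmul_eq_mul] at hκ
      have h6 : ((Finset.univ.filter fun τ : Equiv.Perm (Fin (ty i0).toList.length) =>
          ∀ x, (ty i0).toList.get (τ x) = (ty i0).toList.get x).card : ℂ) ≠ 0 := by
        rw [Nat.cast_ne_zero, ← Nat.pos_iff_ne_zero, Finset.card_pos]
        exact ⟨1, Finset.mem_filter.2 ⟨Finset.mem_univ _, fun x => rfl⟩⟩
      exact (mul_eq_zero.1 ((mul_eq_zero.1 hκ).resolve_left h6)).resolve_left (hC0 i0)
    · intro i _ hi
      by_cases e : (ty i).toList.length = (ty i0).toList.length
      · rw [dif_pos e, coeff_sum]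
        refine Finset.sum_eq_zero fun τ _ => ?_
        rw [coeff_monomial, if_neg]
        intro h6
        apply hi
        apply hty
        rw [← map_get (ty i), ← map_get (ty i0)]
        have h7 : (fun j => (ty i).toList.get j) =
            (fun x => (ty i0).toList.get x) ∘ (τ.trans (finCongr e)) := by
          funext j
          have h8 := DFunLike.congr_fun h6 (Fin.cast e (τ j))
          change (ty i).toList.get (τ.symm (Fin.cast e.symm (Fin.cast e (τ j)))) =
            (ty i0).toList.get (Fin.cast e (τ j)) at h8
          rw [Fin.cast_cast, Fin.cast_eq_self, Equiv.symm_apply_apply] at h8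
          exact h8
        rw [h7, ← Multiset.map_map]
        congr 1
        have h9 := Finset.map_univ_equiv (τ.trans (finCongr e))
        have h10 := congrArg Finset.val h9
        rw [Finset.map_val] at h10
        exact h10
      · rw [dif_neg e, coeff_zero]
    · intro h'
      exact absurd (Finset.mem_univ _) h'
  apply hi0
  apply evalP_inj
  funext u
  rw [key u, map_zero, Pi.zero_apply]

end Vale.Agent.P181.SZR2
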